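import Vale.Agent.P214.BLOC.Pow
import Vale.Agent.P214.WSEQ.Loc
import Vale.Agent.P214.CST.Main

set_option linter.all false

/-! Target B, block B-LOC, part C: the local situation (dilated to radius `3/8`) at a point of
flatness at a power rate; at a singular point the measure is on no graph. -/

open Set Filter Topology MeasureTheory Metric
open scoped RealInnerProductSpace ENNReal NNReal ContDiff

namespace Vale.Agent.P214

variable {E : Type*} [NormedAddCommGroup E] [InnerProductSpace ℝ E] [FiniteDimensional ℝ E]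
  [MeasurableSpace E] [BorelSpace E]
variable {m : ℕ} {U : Set E} {V : IntegralVarifold m U} {T : Submodule ℝ E} {x : E}

namespace BLOC

open SUB WIN STR SCALE

/-- the local situation at a point of flatness at a power rate, dilated to radius `3/8` -/
structure LocB (m Q : ℕ) (T : Submodule ℝ E) (ν : Measure E) (P : E → E →L[ℝ] E) (b τ : ℝ) :
    Prop where
  int : ∀ r : ℝ, 0 < r → r ≤ 3 / 8 → Skel.IntCyl m Q T 0 r (τ * r * r ^ b) (τ * r ^ b) ν P
  exc : ∀ r : ℝ, 0 < r → r ≤ 3 / 8 → Skel.exc T ν P 0 r ≤ τ * r ^ m * r ^ b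
  high : HighD m Q T ν (3 / 16) 0
  zero_supp : (0:E) ∈ ν.support

variable {Q : ℕ} {β C r₀ : ℝ}

/-- **The local situation at a point of flatness at a power rate** -/
theorem exists_locB (h : PF V x T Q β C r₀) (hU : IsOpen U) (hst : V.IsStationary)
    (hx : x ∈ V.spt) {τ : ℝ} (hτ : 0 < τ) : ∀ᶠ r₁ in 𝓝[>] (0:ℝ), 0 < r₁ ∧
      closedBall x (2 * r₁) ⊆ U ∧
      LocB m Q T (dilM m 0 ((3 / 8) / r₁) (cylT V T x r₁))
        (dilP 0 ((3 / 8) / r₁) (trP V x)) β τ := by
  have hcg := cg_pos m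
  obtain ⟨C', hC', hev⟩ := subcyl_pow h hU hst hx
  have hθ := h.theta hU hst hx.1
  obtain ⟨hT, hQ, hβ, hr₀, -⟩ := h
  have hsm : ∀ᶠ r₁ in 𝓝[>] (0:ℝ), C' * (8 / 3 * r₁) ^ β ≤ τ := by
    have h4 : Tendsto (fun r : ℝ => C' * (8 / 3 * r) ^ β) (𝓝 0) (𝓝 (C' * (8 / 3 * 0) ^ β)) :=
      (continuous_const.mul ((Real.continuous_rpow_const hβ.le).comp
        (continuous_const.mul continuous_id))).tendsto 0
    rw [mul_zero, Real.zero_rpow hβ.ne', mul_zero] at h4
    exact ((h4.mono_left nhdsWithin_le_nhds).eventually (gt_mem_nhds hτ)).mono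
      fun r hr => hr.le
  filter_upwards [hev, hsm, self_mem_nhdsWithin] with r₁ h1 h2 hr₁
  have hr₁' : (0:ℝ) < r₁ := hr₁
  obtain ⟨hb, hall⟩ := h1
  have hH0 : HighD m Q T (cylT V T x r₁) (r₁ / 2) 0 :=
    highD_of_theta hU hst hr₁' hb (by rw [norm_zero]; positivity) (by rw [zero_add, hθ])
  set t : ℝ := 8 / 3 * r₁ with ht
  have ht0 : 0 < t := by positivity
  have hti : (3 / 8) / r₁ = t⁻¹ := by rw [ht]; field_simp
  have htr : ∀ r : ℝ, r ≤ 3 / 8 → t * r ≤ r₁ := by
    intro r hr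
    rw [ht]
    nlinarith
  rw [hti]
  have hfin := (hall r₁ hr₁' le_rfl).1.cyl.fin
  refine ⟨hr₁', hb, ⟨?_, ?_, ?_, ?_⟩⟩
  · intro r hr hrr
    obtain ⟨c1, c2, c3, c4, c5⟩ := (hall (t * r) (by positivity) (htr r hrr)).1
    have e1 : (t * r) ^ β = t ^ β * r ^ β := Real.mul_rpow ht0.le hr.le
    have hrβ : 0 < r ^ β := Real.rpow_pos_of_pos hr β
    have h3 : Skel.IntCyl m Q T 0 (t * r) (t * (τ * r * r ^ β)) (τ * r ^ β) (cylT V T x r₁)
        (trP V x) := by
      refine ⟨⟨c1.fin, c1.meas, c1.proj, c1.dimT, c1.isOpen, ?_, c1.stat⟩, c2, c3, c4,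
        c5.trans ?_⟩
      · filter_upwards [c1.slab] with y hy hyG
        refine (hy hyG).trans ?_
        rw [e1]
        calc C' * (t * r) * (t ^ β * r ^ β) = t * ((C' * t ^ β) * r * r ^ β) := by ring
          _ ≤ t * (τ * r * r ^ β) := by gcongr
      · have : C' * (t * r) ^ β ≤ τ * r ^ β := by
          rw [e1]
          calc C' * (t ^ β * r ^ β) = (C' * t ^ β) * r ^ β := by ring
            _ ≤ τ * r ^ β := by gcongr
        gcongr
    exact intCyl_bu ht0 h3
  · intro r hr hrr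
    have h3 := (hall (t * r) (by positivity) (htr r hrr)).2
    have e1 : (t * r) ^ β = t ^ β * r ^ β := Real.mul_rpow ht0.le hr.le
    have hrβ : 0 < r ^ β := Real.rpow_pos_of_pos hr β
    have h4 := exc_bu (T := T) (m := m) ht0 (cylT V T x r₁) (trP V x) 0 r
    rw [smul_zero] at h4
    rw [h4]
    calc t⁻¹ ^ m * Skel.exc T (cylT V T x r₁) (trP V x) 0 (t * r)
        ≤ t⁻¹ ^ m * (C' * (t * r) ^ m * (t * r) ^ β) := by gcongr
      _ = t⁻¹ ^ m * ((C' * t ^ β * r ^ β) * (t * r) ^ m) := by rw [e1]; ring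
      _ = (C' * t ^ β * r ^ β) * r ^ m := WSEQ.scal_aux ht0 m _ _
      _ ≤ (τ * r ^ β) * r ^ m := by gcongr
      _ = _ := by ring
  · have h3 : r₁ / 2 = t * (3 / 16) := by rw [ht]; ring
    rw [h3] at hH0
    have h4 := HighD_bu (m := m) ht0 hH0
    rwa [smul_zero] at h4
  · have h3 : (0:E) ∈ (cylT V T x r₁).support := by
      refine W5.mem_support_of_ratio (m := m) (s₀ := r₁ / 2) (by positivity) fun s hs hs2 => ?_
      have := hH0 s hs (by simpa using hs2)
      have hQ' : (1:ℝ) ≤ Q := by exact_mod_cast hQ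
      have h4 : 0 < (Q : ℝ) * cg m := by positivity
      linarith
    have h4 := support_bu (m := m) ht0 h3
    rwa [smul_zero] at h4

/-- **the last step** -/
theorem isRegular_of_graph {r₁ : ℝ} (hU : IsOpen U) (hst : V.IsStationary) (hr₁ : 0 < r₁)
    (hU' : closedBall x (2 * r₁) ⊆ U)
    (hx : x ∈ V.spt) (hT : Module.finrank ℝ T = m) {r : ℝ} (hr : 0 < r)
    (hrr : r ≤ r₁) {w : E → E} (h : ALL.OnGraph T (cylT V T x r₁) r w) :
    V.IsRegular x := by
  set W : Set E := {y | ‖T.starProjection (y - x)‖ < r ∧ ‖FV.co T (y - x)‖ < r₁} with hW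
  have hcW : Continuous fun y : E => T.starProjection (y - x) :=
    T.starProjection.continuous.comp (continuous_id.sub continuous_const)
  have hcW' : Continuous fun y : E => FV.co T (y - x) :=
    (FV.co T).continuous.comp (continuous_id.sub continuous_const)
  have hWo : IsOpen W := (isOpen_lt hcW.norm continuous_const).inter
    (isOpen_lt hcW'.norm continuous_const)
  have hWreg : ∀ y ∈ W, y - x ∈ SUB.reg T r₁ := by
    intro y hy
    rw [SUB.mem_reg]
    exact ⟨hy.1.trans_le hrr, hy.2.le⟩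
  have hxW : x ∈ W := by
    refine ⟨?_, ?_⟩ <;> simp [hr, hr₁]
  refine CST.regular_of_spt_subset hU V hst hx (hWo.mem_nhds hxW)
    (S := {y | y - x ∈ ALL.graphOver T w (ball 0 r)})
    (ALL.isSmoothSubmanifold_translate
      (ALL.isSmoothSubmanifold_graph hT isOpen_ball h.smooth h.perp) x) ?_
  rintro y ⟨hy, hyW⟩
  refine ALL.eq_on_support isOpen_ball h.smooth.continuousOn h.ae ?_ ?_
  · intro N hN
    have h1 : (fun z : E => z - x) ⁻¹' N ∩ W ∈ 𝓝 y := by
      refine inter_mem ?_ (hWo.mem_nhds hyW)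
      exact (continuous_id.sub continuous_const).continuousAt.preimage_mem_nhds hN
    have h2 := hy.2 _ h1
    refine lt_of_lt_of_le h2 ?_
    rw [cylT]
    have hsub : (fun z : E => z - x) ⁻¹' N ∩ W ⊆ (fun z : E => z - x) ⁻¹' (N ∩ SUB.reg T r₁) := by
      rintro z ⟨hz1, hz2⟩
      exact ⟨hz1, hWreg z hz2⟩
    calc V.weight ((fun z : E => z - x) ⁻¹' N ∩ W)
        ≤ V.weight ((fun z : E => z - x) ⁻¹' (N ∩ SUB.reg T r₁)) := measure_mono hsub
      _ = (V.weight.map (fun z => z - x)) (N ∩ SUB.reg T r₁) := by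
          rw [(SUB.emb x).map_apply]
      _ = ((V.weight.map (fun z => z - x)).restrict (SUB.reg T r₁)) N := by
          rw [Measure.restrict_apply' (SUB.measurableSet_reg T r₁)]
  · rw [mem_ball_zero_iff]
    exact hyW.1

/-- at a singular point the dilated measure is on no graph -/
theorem not_onGraph {r₁ : ℝ} (hU : IsOpen U) (hst : V.IsStationary) (hr₁ : 0 < r₁)
    (hU' : closedBall x (2 * r₁) ⊆ U) (hx : x ∈ V.sing) (hT : Module.finrank ℝ T = m) {l : ℝ}
    (hl : 0 < l) {ρ : ℝ} (hρ : 0 < ρ) (w : E → E) :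
    ¬ ALL.OnGraph T (dilM m 0 l (cylT V T x r₁)) ρ w := by
  intro h
  refine hx.2 ?_
  have h1 := (h.mono (min_le_left ρ (l * r₁))).of_dil hl
  have hρ' : 0 < min ρ (l * r₁) := lt_min hρ (mul_pos hl hr₁)
  refine isRegular_of_graph hU hst hr₁ hU' hx.1 hT (r := l⁻¹ * min ρ (l * r₁)) ?_ ?_ h1
  · exact mul_pos (inv_pos.2 hl) hρ'
  · calc l⁻¹ * min ρ (l * r₁) ≤ l⁻¹ * (l * r₁) :=
          mul_le_mul_of_nonneg_left (min_le_right _ _) (inv_pos.2 hl).le
      _ = r₁ := by rw [← mul_assoc, inv_mul_cancel₀ hl.ne', one_mul]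

end BLOC

end Vale.Agent.P214
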