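import Vale.Agent.P214.BLOC.Sub
import Vale.Agent.P214.DIM.H964.Main
import Vale.Agent.P214.WIN.Props

set_option linter.all false

/-! Target B, block B-LOC, part B: the translated varifold at a point of flatness at a power rate,
over all cylinders of radius `r ≤ r₁`, with power bounds of height, mass defect and excess. -/

open Set Filter Topology MeasureTheory Metric
open scoped RealInnerProductSpace ENNReal NNReal

namespace Vale.Agent.P214

variable {E : Type*} [NormedAddCommGroup E] [InnerProductSpace ℝ E] [FiniteDimensional ℝ E]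
  [MeasurableSpace E] [BorelSpace E]
variable {m : ℕ} {U : Set E} {V : IntegralVarifold m U} {T : Submodule ℝ E} {x : E}

namespace BLOC

open SUB

/-- the data of `PowerFlat` for a given plane, multiplicity, exponent, constant and radius -/
def PF (V : IntegralVarifold m U) (x : E) (T : Submodule ℝ E) (Q : ℕ) (β C r₀ : ℝ) : Prop :=
  Module.finrank ℝ T = m ∧ 1 ≤ Q ∧ 0 < β ∧ 0 < r₀ ∧
    ∀ r, 0 < r → r ≤ r₀ →
      (∀ y ∈ V.spt ∩ ball x r, ‖(y - x) - proj T (y - x)‖ ≤ C * r ^ (1 + β)) ∧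
      (∫ y in ball x r, ‖proj (V.tangent y) - proj T‖ ^ 2 ∂V.weight ≤ C * r ^ ((m : ℝ) + β)) ∧
      |V.weight.real (ball x r) - Q * (μH[m] : Measure E).real ((T : Set E) ∩ ball 0 r)|
        ≤ C * r ^ ((m : ℝ) + β)

lemma powerFlat_iff : V.PowerFlat x ↔ ∃ (T : Submodule ℝ E) (Q : ℕ) (β C r₀ : ℝ),
    PF V x T Q β C r₀ := Iff.rfl

lemma one_add_pow_le (m : ℕ) {x : ℝ} (h0 : 0 ≤ x) (h1 : x ≤ 1) :
    (1 + x) ^ m ≤ 1 + 3 ^ m * x := by
  induction m with
  | zero => simp; exact h0
  | succ m ih =>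
    have h3 : (1:ℝ) ≤ 3 ^ m := one_le_pow₀ (by norm_num)
    calc (1 + x) ^ (m + 1) = (1 + x) ^ m * (1 + x) := pow_succ _ _
      _ ≤ (1 + 3 ^ m * x) * (1 + x) := by gcongr
      _ = 1 + x + 3 ^ m * x + 3 ^ m * (x * x) := by ring
      _ ≤ 1 + 3 ^ m * x + 3 ^ m * x + 3 ^ m * (x * 1) := by gcongr; nlinarith
      _ = _ := by ring

lemma PF.C_nonneg {Q : ℕ} {β C r₀ : ℝ} (h : PF V x T Q β C r₀) : 0 ≤ C := by
  obtain ⟨-, -, hβ, hr₀, h5⟩ := h
  have h6 := (h5 r₀ hr₀ le_rfl).2.2
  have h7 : 0 ≤ C * r₀ ^ ((m : ℝ) + β) := (abs_nonneg _).trans h6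
  exact nonneg_of_mul_nonneg_left h7 (by positivity)

/-- rpow bookkeeping -/
lemma rpow_one_add {r β : ℝ} (hr : 0 < r) : r ^ (1 + β) = r * r ^ β := by
  rw [Real.rpow_add hr, Real.rpow_one]

lemma rpow_nat_add {r β : ℝ} (hr : 0 < r) : r ^ ((m : ℝ) + β) = r ^ m * r ^ β := by
  rw [Real.rpow_add hr, Real.rpow_natCast]

lemma two_rpow {r β : ℝ} (hr : 0 ≤ r) : (2 * r) ^ β = 2 ^ β * r ^ β :=
  Real.mul_rpow (by norm_num) hr

section

variable {Q : ℕ} {β C r₀ : ℝ}

/-- the density at a point of flatness at a power rate is `Q` -/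
lemma PF.theta (h : PF V x T Q β C r₀) (hU : IsOpen U) (hst : V.IsStationary) (hx : x ∈ U) :
    V.theta x = Q := by
  have hC := h.C_nonneg
  obtain ⟨hT, hQ, hβ, hr₀, h5⟩ := h
  have h1 := IntegralVarifold.tendsto_bratio hU hst hx
  have h2 : Tendsto (MU.bratio m V.weight x) (𝓝[>] 0) (𝓝 (MU.om m * Q)) := by
    rw [tendsto_iff_norm_sub_tendsto_zero]
    have h3 : Tendsto (fun r : ℝ => C * r ^ β) (𝓝[>] 0) (𝓝 0) := by
      have h4 : Tendsto (fun r : ℝ => C * r ^ β) (𝓝 0) (𝓝 (C * 0 ^ β)) :=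
        (continuous_const.mul (Real.continuous_rpow_const hβ.le)).tendsto 0
      rw [Real.zero_rpow hβ.ne', mul_zero] at h4
      exact h4.mono_left nhdsWithin_le_nhds
    refine squeeze_zero' (Eventually.of_forall fun r => norm_nonneg _) ?_ h3
    filter_upwards [Ioc_mem_nhdsGT hr₀] with r hr
    have h6 := (h5 r hr.1 hr.2).2.2
    rw [DIM.real_plane_ball hT hr.1, rpow_nat_add hr.1] at h6
    have hrm : 0 < r ^ m := pow_pos hr.1 m
    have h7 : MU.bratio m V.weight x r - MU.om m * Q =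
        (V.weight.real (ball x r) - Q * (MU.om m * r ^ m)) / r ^ m := by
      unfold MU.bratio
      field_simp
    rw [h7, Real.norm_eq_abs, abs_div, abs_of_pos hrm, div_le_iff₀ hrm]
    calc _ ≤ C * (r ^ m * r ^ β) := h6
      _ = _ := by ring
  have h8 := tendsto_nhds_unique h1 h2
  exact mul_left_cancel₀ (MU.om_pos m).ne' h8

/-- high density of the restricted translated measure at the points of density at least `Q` -/
lemma highD_of_theta (hU : IsOpen U) (hst : V.IsStationary) {r₁ : ℝ} (hr₁ : 0 < r₁)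
    (hb : closedBall x (2 * r₁) ⊆ U) {y : E} (hy : ‖y‖ ≤ r₁ / 2) {q : ℕ}
    (hθ : (q : ℝ) ≤ V.theta (y + x)) :
    WIN.HighD m q T (cylT V T x r₁) (r₁ / 2) y := by
  intro s hs hys
  have hs2 : s < r₁ / 2 := by linarith [norm_nonneg (T.starProjection y)]
  have hyU : y + x ∈ U := hb (by
    rw [mem_closedBall, dist_eq_norm, add_sub_cancel_right]; linarith)
  have hsub : closedBall (y + x) s ⊆ U := by
    intro z hz
    refine hb ?_
    rw [mem_closedBall, dist_eq_norm] at hz ⊢
    calc ‖z - x‖ = ‖(z - (y + x)) + y‖ := by congr 1; abel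
      _ ≤ ‖z - (y + x)‖ + ‖y‖ := norm_add_le _ _
      _ ≤ 2 * r₁ := by linarith
  -- lower bound for the weight
  have h1 : cg m * V.theta (y + x) ≤ ratio m V.weight (y + x) s := by
    obtain ⟨R, hR, hRU⟩ := IntegralVarifold.exists_bigger hU hsub hs.le
    have hfin := V.finite_restrict hRU
    have hls := V.locStat hst hRU
    have h2 := hls.le_ratio hs (closedBall_subset_ball hR)
    rw [V.theta_restrict (mem_ball_self (hs.trans hR))] at h2
    refine h2.trans (le_of_eq ?_)
    exact IntegralVarifold.kratio_restrict MU.prof_profile hs (closedBall_subset_closedBall hR.le)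
  have h3 : ratio m (cylT V T x r₁) y s = ratio m V.weight (y + x) s := by
    unfold ratio cylT
    congr 1
    have h2 : ∫ z in reg T r₁, cut y s z ∂(V.weight.map (fun y => y - x))
        = ∫ z, cut y s z ∂(V.weight.map (fun y => y - x)) := by
      refine setIntegral_eq_integral_of_forall_compl_eq_zero fun z hz => cut_eq_zero hs ?_
      by_contra hcon
      rw [not_le] at hcon
      apply hz
      rw [mem_reg]
      have hpn := FV.norm_star_le T (z - y)
      have hqn := FV.norm_co_le T (z - y)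
      have e : z = y + (z - y) := by abel
      constructor
      · calc ‖T.starProjection z‖ = ‖T.starProjection y + T.starProjection (z - y)‖ := by
              rw [← map_add, ← e]
          _ ≤ ‖T.starProjection y‖ + ‖T.starProjection (z - y)‖ := norm_add_le _ _
          _ < r₁ := by linarith
      · calc ‖FV.co T z‖ = ‖FV.co T y + FV.co T (z - y)‖ := by rw [← map_add, ← e]
          _ ≤ ‖FV.co T y‖ + ‖FV.co T (z - y)‖ := norm_add_le _ _
          _ ≤ r₁ := by linarith [FV.norm_co_le T y]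
    rw [h2, (emb x).integral_map]
    refine integral_congr_ae (Eventually.of_forall fun z => ?_)
    unfold cut
    show prof (‖z - x - y‖ ^ 2 / s ^ 2) = _
    rw [show z - x - y = z - (y + x) by abel]
  rw [h3]
  have hcg := cg_pos m
  calc (q : ℝ) * cg m = cg m * q := mul_comm _ _
    _ ≤ cg m * V.theta (y + x) := by gcongr
    _ ≤ _ := h1

/-- **The slab-cylinder at a point of flatness at a power rate** (not dilated) -/
theorem subcyl_pow (h : PF V x T Q β C r₀) (hU : IsOpen U) (hst : V.IsStationary)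
    (hx : x ∈ V.spt) : ∃ C' : ℝ, 0 ≤ C' ∧ ∀ᶠ r₁ in 𝓝[>] (0:ℝ), closedBall x (2 * r₁) ⊆ U ∧
      ∀ r, 0 < r → r ≤ r₁ →
        Skel.IntCyl m Q T 0 r (C' * r * r ^ β) (C' * r ^ β) (cylT V T x r₁) (trP V x) ∧
        Skel.exc T (cylT V T x r₁) (trP V x) 0 r ≤ C' * r ^ m * r ^ β := by
  have hC := h.C_nonneg
  obtain ⟨hT, hQ, hβ, hr₀, h5⟩ := h
  obtain ⟨R, hR0, hR⟩ : ∃ R > 0, closedBall x R ⊆ U :=
    nhds_basis_closedBall.mem_iff.1 (hU.mem_nhds hx.1)
  have hom := MU.om_pos m
  set B : ℝ := 2 ^ β with hB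
  have hB0 : 0 < B := by positivity
  -- the constants
  set C₁ : ℝ := 2 * C * B with hC1
  set C₂ : ℝ := Q * MU.om m * 3 ^ m * C₁ + C * 2 ^ m * B with hC2
  set C₃ : ℝ := Module.finrank ℝ E * (C * B * 2 ^ m) with hC3
  have hC10 : 0 ≤ C₁ := by positivity
  have hC20 : 0 ≤ C₂ := by positivity
  have hC30 : 0 ≤ C₃ := by positivity
  refine ⟨C₁ + C₂ + C₃ + C, by positivity, ?_⟩
  -- smallness of the radius
  have hsm : ∀ᶠ r₁ in 𝓝[>] (0:ℝ), 2 * C * (4 * r₁) ^ β ≤ 1 / 8 := by
    have h4 : Tendsto (fun r : ℝ => 2 * C * (4 * r) ^ β) (𝓝 0) (𝓝 (2 * C * (4 * 0) ^ β)) :=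
      (continuous_const.mul ((Real.continuous_rpow_const hβ.le).comp
        (continuous_const.mul continuous_id))).tendsto 0
    rw [mul_zero, Real.zero_rpow hβ.ne', mul_zero] at h4
    exact ((h4.mono_left nhdsWithin_le_nhds).eventually (gt_mem_nhds (by norm_num))).mono
      fun r hr => hr.le
  filter_upwards [Ioo_mem_nhdsGT (show 0 < R / 2 by positivity),
    Ioo_mem_nhdsGT (show 0 < r₀ / 4 by positivity), hsm] with r₁ hr1 hr2 hr3
  have hr₁ : 0 < r₁ := hr1.1
  have hrR : 2 * r₁ ≤ R := by linarith [hr1.2]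
  have hr4 : 4 * r₁ ≤ r₀ := by linarith [hr2.2]
  have hh' : ∀ s, 0 < s → s ≤ 2 * r₁ → ∀ z ∈ V.spt ∩ closedBall x s,
      ‖(z - x) - proj T (z - x)‖ ≤ 1 / 8 * s := by
    intro s hs hs2 z hz
    have h1 := (h5 (2 * s) (by positivity) (by linarith)).1 z
      ⟨hz.1, closedBall_subset_ball (by linarith) hz.2⟩
    rw [rpow_one_add (by positivity)] at h1
    calc _ ≤ C * (2 * s * (2 * s) ^ β) := h1
      _ ≤ C * (2 * s * (4 * r₁) ^ β) := by
          have : (2 * s) ^ β ≤ (4 * r₁) ^ β :=
            Real.rpow_le_rpow (by positivity) (by linarith) hβ.le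
          gcongr
      _ = (2 * C * (4 * r₁) ^ β) * s := by ring
      _ ≤ 1 / 8 * s := by gcongr
  refine ⟨(closedBall_subset_closedBall hrR).trans hR, fun r hr hrr => ?_⟩
  have hcyl := cylStat_all hU hst hT (by norm_num : (0:ℝ) < 1 / 8) (by norm_num) hr₁ hrR hR hh' hr hrr
  have hrm : 0 < r ^ m := by positivity
  have hrβ : 0 < r ^ β := Real.rpow_pos_of_pos hr β
  have hCC : C₁ ≤ C₁ + C₂ + C₃ + C := by linarith
  -- the refined height
  have hslab : ∀ᵐ y ∂(cylT V T x r₁), ‖T.starProjection y‖ < r →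
      ‖FV.co T y‖ ≤ C₁ * r * r ^ β := by
    have h1 := ae_height V (by norm_num : (0:ℝ) < 1 / 8) (by norm_num) hr₁ hh' hr
    have h2 : ∀ᵐ y ∂(cylT V T x r₁), y + x ∈ V.spt := by
      unfold cylT
      refine ae_restrict_of_ae ?_
      rw [(emb x).ae_map_iff]
      filter_upwards [V.ae_mem_spt] with z hz
      rwa [sub_add_cancel]
    filter_upwards [h1, h2] with y hy1 hy2 hyr
    have h3 := hy1 hyr
    have h4 : ‖y‖ < 2 * r := by
      calc ‖y‖ = ‖T.starProjection y + FV.co T y‖ := by rw [FV.star_add_co]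
        _ ≤ ‖T.starProjection y‖ + ‖FV.co T y‖ := norm_add_le _ _
        _ < 2 * r := by linarith
    have h6 := (h5 (2 * r) (by positivity) (by linarith)).1 (y + x)
      ⟨hy2, by rw [mem_ball, dist_eq_norm, add_sub_cancel_right]; exact h4⟩
    rw [add_sub_cancel_right, rpow_one_add (by positivity), two_rpow hr.le] at h6
    calc ‖FV.co T y‖ ≤ C * (2 * r * (2 ^ β * r ^ β)) := h6
      _ = C₁ * r * r ^ β := by rw [hC1, hB]; ring
  refine ⟨⟨?_, T.zero_mem, hr, ?_, ?_⟩, ?_⟩
  · refine ⟨hcyl.fin, hcyl.meas, hcyl.proj, hcyl.dimT, hcyl.isOpen, ?_, hcyl.stat⟩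
    filter_upwards [hslab] with y hy hyb
    rw [mem_ball_zero_iff] at hyb
    refine (hy hyb).trans ?_
    gcongr
  · filter_upwards [ae_int V (by norm_num : (0:ℝ) < 1 / 8) (by norm_num) hr₁ hh'] with y hy _
    exact hy
  · -- mass
    set hr' : ℝ := C₁ * r * r ^ β with hhr
    have hhr0 : 0 ≤ hr' := by positivity
    have hx1 : C₁ * r ^ β ≤ 1 := by
      have h6 : (2 * r) ^ β ≤ (4 * r₁) ^ β :=
        Real.rpow_le_rpow (by positivity) (by linarith) hβ.le
      rw [two_rpow hr.le] at h6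
      calc C₁ * r ^ β = 2 * C * (2 ^ β * r ^ β) := by rw [hC1, hB]; ring
        _ ≤ 2 * C * (4 * r₁) ^ β := by gcongr
        _ ≤ 1 := by linarith
    have hhr1 : hr' ≤ r := by
      calc hr' = (C₁ * r ^ β) * r := by rw [hhr]; ring
        _ ≤ 1 * r := by gcongr
        _ = r := one_mul r
    have hcylm : MeasurableSet (Skel.cylSet T (0:E) r) :=
      (isOpen_ball.preimage T.starProjection.continuous).measurableSet
    have hmass : (cylT V T x r₁) (Skel.cylSet T 0 r)
        = V.weight ((fun y => y - x) ⁻¹' (Skel.cylSet T 0 r ∩ reg T r₁)) := by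
      unfold cylT
      rw [Measure.restrict_apply hcylm, (emb x).map_apply]
    have hfinR : V.weight (closedBall x R) < ⊤ := V.locFinite _ hR (isCompact_closedBall x R)
    have hlow : V.weight.real (ball x r) ≤ (cylT V T x r₁).real (Skel.cylSet T 0 r) := by
      rw [measureReal_def, measureReal_def, hmass]
      refine ENNReal.toReal_mono ?_ (measure_mono ?_)
      · refine ((measure_mono ?_).trans_lt hfinR).ne
        intro y hy
        have h1 := reg_subset T hr₁ hy.2
        rw [mem_ball_zero_iff] at h1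
        rw [mem_closedBall, dist_eq_norm]; linarith
      · intro y hy
        rw [mem_ball, dist_eq_norm] at hy
        have h1 := FV.norm_star_le T (y - x)
        have h2 := FV.norm_co_le T (y - x)
        refine ⟨?_, ?_⟩
        · show T.starProjection (y - x) ∈ ball 0 r
          rw [mem_ball_zero_iff]; linarith
        · show y - x ∈ reg T r₁
          rw [mem_reg]
          exact ⟨by linarith, by linarith⟩
    have hup : (cylT V T x r₁).real (Skel.cylSet T 0 r) ≤ V.weight.real (ball x (r + hr')) := by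
      have hae : ∀ᵐ z ∂V.weight, z ∈ (fun y => y - x) ⁻¹' (Skel.cylSet T 0 r ∩ reg T r₁) →
          z ∈ ball x (r + hr') := by
        have h1 := hslab
        unfold cylT at h1
        rw [ae_restrict_iff' (measurableSet_reg _ _), (emb x).ae_map_iff] at h1
        filter_upwards [h1] with z hz hzm
        have h2 : ‖T.starProjection (z - x)‖ < r := by
          have := hzm.1
          change T.starProjection (z - x) ∈ ball 0 r at this
          rwa [mem_ball_zero_iff] at this
        have h3 := hz hzm.2 h2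
        rw [mem_ball, dist_eq_norm]
        calc ‖z - x‖ = ‖T.starProjection (z - x) + FV.co T (z - x)‖ := by rw [FV.star_add_co]
          _ ≤ ‖T.starProjection (z - x)‖ + ‖FV.co T (z - x)‖ := norm_add_le _ _
          _ < r + hr' := by linarith
      rw [measureReal_def, measureReal_def, hmass]
      refine ENNReal.toReal_mono ?_ (measure_mono_ae hae)
      refine ((measure_mono (ball_subset_closedBall.trans
        (closedBall_subset_closedBall ?_))).trans_lt hfinR).ne
      linarith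
    have h6 := (h5 r hr (by linarith)).2.2
    have h7 := (h5 (r + hr') (by positivity) (by linarith)).2.2
    rw [DIM.real_plane_ball hT hr, rpow_nat_add hr] at h6
    rw [DIM.real_plane_ball hT (by positivity), rpow_nat_add (by positivity)] at h7
    have h8 := (abs_le.1 h6).1
    have h9 := (abs_le.1 h7).2
    have hom' : Skel.om m = MU.om m := rfl
    rw [hom']
    -- `(r + h)^m ≤ r^m (1 + 3^m C₁ r^β)`
    have h10 : (r + hr') ^ m ≤ r ^ m * (1 + 3 ^ m * (C₁ * r ^ β)) := by
      have e1 : r + hr' = r * (1 + C₁ * r ^ β) := by rw [hhr]; ring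
      rw [e1, mul_pow]
      gcongr
      exact one_add_pow_le m (by positivity) hx1
    have h11 : (r + hr') ^ m * (r + hr') ^ β ≤ (2 ^ m * r ^ m) * (B * r ^ β) := by
      have a1 : (r + hr') ^ m ≤ (2 * r) ^ m := by gcongr; linarith
      have a2 : (r + hr') ^ β ≤ (2 * r) ^ β :=
        Real.rpow_le_rpow (by positivity) (by linarith) hβ.le
      rw [mul_pow] at a1
      rw [two_rpow hr.le] at a2
      gcongr
    have hQ0 : (0:ℝ) ≤ Q := Nat.cast_nonneg Q
    rw [abs_le]
    constructor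
    · have a1 : C * (r ^ m * r ^ β) ≤ (C₁ + C₂ + C₃ + C) * r ^ β * r ^ m := by
        calc C * (r ^ m * r ^ β) = C * r ^ β * r ^ m := by ring
          _ ≤ _ := by gcongr; linarith
      linarith
    · have a1 : V.weight.real (ball x (r + hr')) ≤
          Q * (MU.om m * (r ^ m * (1 + 3 ^ m * (C₁ * r ^ β)))) +
            C * ((2 ^ m * r ^ m) * (B * r ^ β)) := by
        have a2 : (Q : ℝ) * (MU.om m * (r + hr') ^ m) ≤
            Q * (MU.om m * (r ^ m * (1 + 3 ^ m * (C₁ * r ^ β)))) := by gcongr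
        have a3 : C * ((r + hr') ^ m * (r + hr') ^ β) ≤
            C * ((2 ^ m * r ^ m) * (B * r ^ β)) := by gcongr
        linarith
      have a4 : Q * (MU.om m * (r ^ m * (1 + 3 ^ m * (C₁ * r ^ β)))) +
            C * ((2 ^ m * r ^ m) * (B * r ^ β)) - Q * MU.om m * r ^ m = C₂ * r ^ β * r ^ m := by
        rw [hC2]; ring
      have a5 : C₂ * r ^ β * r ^ m ≤ (C₁ + C₂ + C₃ + C) * r ^ β * r ^ m := by
        gcongr; linarith
      linarith
  · have h1 := (h5 (2 * r) (by positivity) (by linarith)).2.1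
    rw [rpow_nat_add (by positivity), two_rpow hr.le] at h1
    have h2 := exc_le hU hst hT (by norm_num : (0:ℝ) < 1 / 8) (by norm_num) hr₁ hrR hR hh' hr hrr
      (η := C * (2 ^ β * r ^ β)) (h1.trans (le_of_eq (by ring)))
    refine h2.trans ?_
    calc (Module.finrank ℝ E : ℝ) * (C * (2 ^ β * r ^ β) * (2 * r) ^ m)
        = C₃ * r ^ m * r ^ β := by rw [hC3, hB, mul_pow]; ring
      _ ≤ _ := by gcongr; linarith

end

end BLOC

end Vale.Agent.P214
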